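import Vale.Agent.P232T93.Br

open MeasureTheory

namespace Vale.Agent.Results.P232.AFlatTorus

open Vale.Agent.P232T

/-- The isoperimetric problem in the cubic flat three-torus `ℝ³/ℤ³`: the volume, the shortest closed
geodesics, the profile and all minimizers. -/
theorem result :
    vol Set.univ = 1 ∧
    IsLeast {l | ∃ γ, IsClosedGeodesic γ l} 1 ∧
    (∀ γ, IsShortest γ ↔ ∃ (c : T) (i : Fin 3) (σ : ℝ), (σ = 1 ∨ σ = -1) ∧
      ∀ t, γ t = c + (EuclideanSpace.single i (σ * t) : R3)) ∧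
    ∀ V : ℝ, 0 < V → V < 1 →
      profile V = ENNReal.ofReal (J V) ∧ (∃ E, IsMinimizer V E) ∧
      ∀ E : Set T, IsMinimizer V E ↔
        (V ≤ 1 / 2 ∧ ∃ B, Model V B ∧ E =ᵐ[vol] B) ∨
        (1 / 2 ≤ V ∧ ∃ B, Model (1 - V) B ∧ E =ᵐ[vol] (Bᶜ : Set T)) :=
  ⟨vol_univ, isLeast_length, isShortest_iff, fun _ h0 h1 =>
    ⟨profile_J h0 h1, exists_minimizer h0 h1, minimizer_iff h0 h1⟩⟩

end Vale.Agent.Results.P232.AFlatTorus
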